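import Mathlib
import Vale.Agent.Lib.P090.Defs

namespace Vale.Agent.Lib.P090.H40

open Vale.Agent.Lib.P090
open scoped NNReal ENNReal

universe u

/-- The bounded approximation property is monotone in the constant. -/
theorem BAP.mono {X : Type*} [NormedAddCommGroup X] [NormedSpace ℝ X] {a b : ℝ}
    (h : BAP a X) (hab : a ≤ b) : BAP b X := by
  intro C hC ε hε
  obtain ⟨T, hT1, hT2, hT3⟩ := h C hC ε hε
  exact ⟨T, hT1, hT2.trans hab, hT3⟩

/-- The bounded approximation property passes to a retract. -/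
theorem BAP.of_retract {X Y : Type*} [NormedAddCommGroup X] [NormedSpace ℝ X]
    [NormedAddCommGroup Y] [NormedSpace ℝ Y] (i : Y →L[ℝ] X) (r : X →L[ℝ] Y)
    (hri : ∀ y, r (i y) = y) (c a : ℝ) (hc : ‖r‖ * ‖i‖ ≤ c) (h : BAP a X) :
    BAP (c * a) Y := by
  intro C hC ε hε
  have hpos : 0 < ‖r‖ + 1 := by positivity
  obtain ⟨T, hT1, hT2, hT3⟩ :=
    h (i '' C) (hC.image i.continuous) (ε / (‖r‖ + 1)) (div_pos hε hpos)
  refine ⟨r.comp (T.comp i), ?_, ?_, ?_⟩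
  · have hfin := hT1
    have hle : LinearMap.range ((r.comp (T.comp i) : Y →L[ℝ] Y) : Y →ₗ[ℝ] Y) ≤
        Submodule.map (r : X →ₗ[ℝ] Y) (LinearMap.range (T : X →ₗ[ℝ] X)) := by
      rintro _ ⟨y, rfl⟩
      exact ⟨T (i y), ⟨i y, rfl⟩, rfl⟩
    exact Submodule.finiteDimensional_of_le hle
  · calc ‖r.comp (T.comp i)‖ ≤ ‖r‖ * ‖T.comp i‖ := ContinuousLinearMap.opNorm_comp_le _ _
      _ ≤ ‖r‖ * (‖T‖ * ‖i‖) := by
        gcongr
        exact ContinuousLinearMap.opNorm_comp_le _ _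
      _ = (‖r‖ * ‖i‖) * ‖T‖ := by ring
      _ ≤ c * a := by
        have hT0 : 0 ≤ ‖T‖ := norm_nonneg _
        have hc0 : 0 ≤ c := le_trans (by positivity) hc
        exact mul_le_mul hc hT2 hT0 hc0
  · intro u hu
    have h1 : (r.comp (T.comp i)) u - u = r (T (i u) - i u) := by
      rw [map_sub, hri]
      rfl
    rw [h1]
    have h2 := hT3 (i u) ⟨u, hu, rfl⟩
    calc ‖r (T (i u) - i u)‖ ≤ ‖r‖ * ‖T (i u) - i u‖ := r.le_opNorm _
      _ ≤ ‖r‖ * (ε / (‖r‖ + 1)) := by gcongr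
      _ < ε := by
        rw [← mul_div_assoc, div_lt_iff₀ hpos]
        nlinarith [norm_nonneg r]

end Vale.Agent.Lib.P090.H40
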